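import Vale.Agent.P290Z.K.Defs
import Vale.Agent.P290Z.K.InvP

/-!
# P290Z, part III (K), ASM: coordinates adapted to a two-form differ by holomorphic maps
-/

open scoped Manifold ContDiff Topology
open Set Filter

noncomputable section

namespace Vale.Agent.P290Z.Kur.Asm

open Vale.Agent.P290 Vale.Agent.P267 Vale.Agent.P290.H686
open Vale.Agent.P267.FL (TwoF)

variable {X : All.K3} {σ : TwoF X.X} {k k' : X.X → CC} {j j' : CC → X.X} {c c' : ℂ} {x : X.X}

/-- the holomorphic two-form in a chart -/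
theorem E2_omF (Z : All.K3) {e : OpenPartialHomeomorph Z.X CC} (he : e ∈ atlas CC Z.X) {z : FL.C2}
    (hz : H445.φ.symm z ∈ e.target) (u v : FL.C2) :
    E2 (H445.toFL e) (omF Z) z u v =
      Z.vol e (H445.φ.symm z) * dt (H445.φ.symm u) (H445.φ.symm v) := by
  rw [← H445.loc_Om Z he hz, H686.E2, ev2_apply]
  simp [omF, FL.loc11, FL.loc2, dt]

/-- its pull back -/
theorem E2_pb {Z : All.K3} {f : X.X → Z.X} (hf : IsSm f) {e : FL.Ch X.X}
    (he : e ∈ atlas FL.C2 X.X) {e' : OpenPartialHomeomorph Z.X CC} (he' : e' ∈ atlas CC Z.X)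
    (hx : x ∈ e.source) (hx' : f x ∈ e'.source) {D : FL.C2 →L[ℝ] CC}
    (hD : HasFDerivAt (rep f e (H445.toFL e'))
      ((H445.φ : CC →L[ℂ] FL.C2).restrictScalars ℝ ∘L D) (e x)) (u v : FL.C2) :
    E2 e (pb2 f (omF Z)) (e x) u v = Z.vol e' (e' (f x)) * dt (D u) (D v) := by
  have h2 : H445.φ.symm (H445.toFL e' (f x)) = e' (f x) := H445.φ.symm_apply_apply _
  rw [E2_pb2 hf _ he (H445.mem_atlas_toFL _ he') hx hx', ContinuousLinearMap.bilinearComp_apply,
    E2_omF _ he' (by rw [h2]; exact e'.map_source hx'), h2, hD.fderiv]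
  exact congrArg _ (congrArg₂ dt (H445.φ.symm_apply_apply _) (H445.φ.symm_apply_apply _))

/-- two forms which agree in some chart at every point are equal -/
theorem eq_of_E2 {F G : TwoF X.X} (h : ∀ x, ∃ e ∈ atlas FL.C2 X.X, x ∈ e.source ∧
    ∀ u v, E2 e F (e x) u v = E2 e G (e x) u v) : F = G := by
  refine val2_inj fun x => ?_
  obtain ⟨e, he, hx, h1⟩ := h x
  have m0 := chart_mem_atlas FL.C2 x
  have s0 := mem_chart_source FL.C2 x
  have h2 : ∀ (F : TwoF X.X) u v, val2 F x u v =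
      E2 (chartAt FL.C2 x) F (chartAt FL.C2 x x) u v := fun F u v => by
    rw [E2_apply m0 F s0, Dch_chartAt]
    rfl
  ext u v
  rw [h2, h2, E2_change m0 he F s0 hx, E2_change m0 he G s0 hx,
    ContinuousLinearMap.bilinearComp_apply, ContinuousLinearMap.bilinearComp_apply, h1]

/-- `k` is a system of coordinates at `x`, with inverse `j`, in which `σ = c dz ∧ dw` at `x` -/
structure Co (σ : TwoF X.X) (k : X.X → CC) (j : CC → X.X) (c : ℂ) (x : X.X) : Prop where
  ex : ∃ e ∈ atlas FL.C2 X.X, x ∈ e.source ∧ ∃ (D : FL.C2 →L[ℝ] CC) (D' : CC →L[ℝ] FL.C2),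
    HasFDerivAt (fun y => k (e.symm y)) D (e x) ∧ HasFDerivAt (fun w => e (j w)) D' (k x) ∧
      (∀ u, D (D' u) = u) ∧ ∀ u v, E2 e σ (e x) u v = c * dt (D u) (D v)
  inv : j (k x) = x
  cont : ContinuousAt j (k x)
  ne : c ≠ 0

theorem Co.trans (h : Co σ k j c x) (h' : Co σ k' j' c' x) :
    ∃ L : CC →L[ℂ] CC, HasFDerivAt (fun w => k' (j w)) L (k x) ∧ c = c' * L.det := by
  obtain ⟨e, he, hx, D, D', -, d2, d3, d4⟩ := h.ex
  obtain ⟨e', he', hx', F, -, f1, -, -, f4⟩ := h'.ex
  have t1 : HasFDerivAt (fun z => e' (e.symm z)) (fderiv ℝ (fun z => e' (e.symm z)) (e x))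
      (e (j (k x))) := by
    rw [h.inv]
    exact ((trans_contDiffAt he he' hx hx' (n := 1)).differentiableAt (by simp)).hasFDerivAt
  have t2 : HasFDerivAt (fun y => k' (e'.symm y)) F (e' (e.symm (e (j (k x))))) := by
    rw [h.inv, e.left_inv hx]
    exact f1
  have t3 : HasFDerivAt (fun w => k' (j w))
      (F ∘L fderiv ℝ (fun z => e' (e.symm z)) (e x) ∘L D') (k x) := by
    refine (HasFDerivAt.comp (k x) t2 (HasFDerivAt.comp (k x) t1 d2)).congr_of_eventuallyEq ?_
    have m1 : e.source ∩ e'.source ∈ 𝓝 (j (k x)) := by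
      rw [h.inv]
      exact (e.open_source.inter e'.open_source).mem_nhds ⟨hx, hx'⟩
    filter_upwards [h.cont.preimage_mem_nhds m1] with w hw
    change k' (j w) = k' (e'.symm (e' (e.symm (e (j w)))))
    rw [e.left_inv hw.1, e'.left_inv hw.2]
  generalize hL : F ∘L fderiv ℝ (fun z => e' (e.symm z)) (e x) ∘L D' = L at t3
  have t4 : ∀ u v, c * dt u v = c' * dt (L u) (L v) := fun u v => by
    have h1 := d4 (D' u) (D' v)
    rw [d3, d3, E2_change he he' σ hx hx', ContinuousLinearMap.bilinearComp_apply, f4] at h1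
    rw [← h1, ← hL]
    rfl
  have t5 : Function.Injective L := (injective_iff_map_eq_zero L).2 fun u hu => by
    have h1 : ∀ v, dt u v = 0 := fun v => by
      have h2 := t4 u v
      rw [hu] at h2
      simpa [dt, h.ne] using h2
    exact Prod.ext (by simpa [dt] using h1 (0, 1)) (by simpa [dt] using h1 (1, 0))
  obtain ⟨L', l1, l2, -⟩ := lin L (c / c')
    ((LinearMap.injective_iff_surjective (f := (L : CC →ₗ[ℝ] CC))).1 t5) fun u v => by
      rw [div_mul_eq_mul_div, t4, mul_div_cancel_left₀ _ h'.ne]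
  refine ⟨L', hasFDerivAt_of_restrictScalars ℝ t3 (ContinuousLinearMap.ext l1), ?_⟩
  rw [l2, mul_div_cancel₀ _ h'.ne]

/-- the charts of `X` are adapted to its two-form -/
theorem co_chart {e : OpenPartialHomeomorph X.X CC} (he : e ∈ atlas CC X.X) (hx : x ∈ e.source) :
    Co (omF X) e e.symm (X.vol e (e x)) x := by
  have h1 := e.map_source hx
  have h2 : H445.φ.symm (H445.toFL e x) = e x := H445.φ.symm_apply_apply (e x)
  refine ⟨⟨H445.toFL e, H445.mem_atlas_toFL X he, hx,
    (H445.φ.symm : FL.C2 →L[ℂ] CC).restrictScalars ℝ, (H445.φ : CC →L[ℂ] FL.C2).restrictScalars ℝ,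
    ?_, ?_, fun u => H445.φ.symm_apply_apply u, fun u v => ?_⟩, e.left_inv hx,
    e.continuousAt_symm h1, ((X.holo e he).2 _ h1).1⟩
  · refine (ContinuousLinearMap.hasFDerivAt _).congr_of_eventuallyEq ?_
    filter_upwards [(H445.toFL e).open_target.mem_nhds ((H445.toFL e).map_source hx)] with y hy
    exact e.right_inv hy
  · refine (ContinuousLinearMap.hasFDerivAt _).congr_of_eventuallyEq ?_
    filter_upwards [e.open_target.mem_nhds h1] with w hw
    exact congrArg H445.φ (e.right_inv hw)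
  · rw [E2_omF X he (by rw [h2]; exact h1), h2]
    rfl

end Vale.Agent.P290Z.Kur.Asm
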